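import Vale.Agent.P144D.I.O.Defs2

/-!
The flow with insertions at marked half-edges and a correction: definitions.
-/

namespace Vale.Agent.P144Z

open Finset Matrix

namespace Geo

variable (g : Geo) {k : ℕ} (s : Fin k → g.P × Fin 4)

/-- The interaction with insertions. -/
noncomputable def HinK (q : Par) (v : Cor g.M) (o : ℝ) (O : Fin k → g.Cfg → ℝ) (K : ℕ)
    (X : Finset g.P) (n : g.Cfg) : (g.xt s).E :=
  g.emb s (g.HinC q v X n) + g.carI s (fun _ => √q.Z * o) X +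
    ∑ i ∈ univ.filter (fun i => ball (s i).1 K = X), (√q.Z * (O i n - o)) • g.eI s i

/-- The initial state. -/
noncomputable def initK (q : Par) (v : Cor g.M) (o : ℝ) (O : Fin k → g.Cfg → ℝ) (K : ℕ) :
    g.StI s where
  K X := Cl ((g.xt s).E0 (q.x * q.Z)) (g.HinK s q v o O K) X - g.emb s (g.W0C q v X) -
    g.carI s (fun _ => √q.Z * o) X
  z _ := √q.Z * o

/-- The flow of the insertions. -/
noncomputable def flowK (L : ℕ) (q : Par) (v : Cor g.M) (o : ℝ) (O : Fin k → g.Cfg → ℝ) (K : ℕ)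
    (u : Fin k → ℕ → g.P × Fin 4 → ℝ) : ℕ → g.StI s
  | 0 => g.initK s q v o O K
  | j + 1 => g.stepI s (sc L j) (sc L (j + 1)) (g.flowC L q v j).H (fun i => u i j)
      (flowK L q v o O K u j)

/-- The localized logarithms of the flow are logarithms. -/
structure ConvK (L : ℕ) (q : Par) (v : Cor g.M) (o : ℝ) (O : Fin k → g.Cfg → ℝ) (K : ℕ)
    (u : Fin k → ℕ → g.P × Fin 4 → ℝ) : Prop where
  init : NormedSpace.exp (∑ U, Cl ((g.xt s).E0 (q.x * q.Z)) (g.HinK s q v o O K) U) =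
    (g.xt s).E0 (q.x * q.Z) (NormedSpace.exp (∑ X, g.HinK s q v o O K X))
  step : ∀ j < g.J,
    g.ExpI s (sc L j) (sc L (j + 1)) (g.flowC L q v j).H (g.flowK s L q v o O K u j)

/-- The bounds on the flow of the insertions. -/
structure FlowK (L : ℕ) (q : Par) (v : Cor g.M) (o : ℝ) (O : Fin k → g.Cfg → ℝ) (K : ℕ)
    (u : Fin k → ℕ → g.P × Fin 4 → ℝ) (ν : Fin k → ℕ → ℝ) (w b h : ℝ) : Prop where
  conv : g.ConvK s L q v o O K u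
  conv0 : g.ConvK s L par0 0 1 1 K u
  flow0 : ∑ X, (g.flowK s L par0 0 1 1 K u g.J).Y X = ∑ i, g.eI s i
  last : g.pI s (sc L g.J) h (w * sc L g.J) (fun i => w / ν i g.J) univ
    (∑ X, (g.flowK s L q v o O K u g.J).K X) ≤ b / 2 ^ g.J
  z : ∀ i, |(g.flowK s L q v o O K u g.J).z i - o| ≤ 1 / 2
  size : ∀ i, g.pI s (sc L g.J) h (w * sc L g.J) (fun i => w / ν i g.J) univ (g.eI s i) ≤ 1 / 2

/-- The last integration with insertions. -/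
noncomputable def TTK (L : ℕ) (q : Par) (v : Cor g.M) (o : ℝ) (O : Fin k → g.Cfg → ℝ) (K : ℕ)
    (u : Fin k → ℕ → g.P × Fin 4 → ℝ) : (g.xt s).E :=
  (g.xt s).TL (sc L g.J) (NormedSpace.exp
    (∑ X, g.HI s (g.flowC L q v g.J).H (g.flowK s L q v o O K u g.J) X))

/-- The mixed correlation with insertions, normalised and centred in the reference field `A'`. -/
noncomputable def mixDK (A' : Gauge g.M) (q : Par) (v : Cor g.M) (O : Fin k → g.Cfg → ℝ) : ℝ :=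
  ZJ q g.A s O (fun n => Real.exp (∑ X, v X n) *
    ∏ κ, (g.sgK κ n - ZwC q v A' (g.sgK κ) / ZwC q v A' 1)) / ZwC q v A' 1

end Geo

/-- The bounds on the flow with insertions, when the steps contract. -/
def FlowSK : Prop :=
  ∃ ε₁ > (0 : ℝ), ∀ c' : ℝ, 1 ≤ c' → ∃ η₁ > (0 : ℝ), ∃ L₀ : ℕ, ∀ L ≥ L₀, ∀ C₁ : ℝ, 1 ≤ C₁ →
    ∃ C : ℝ, 1 ≤ C ∧ ∃ η₀ > 0, ∀ η, 0 < η → η ≤ η₀ → ∀ R : ℕ, ∃ δ₀ > 0, ∀ q : Par, q.R = R →
      Crit L q η δ₀ → ∀ Z : ℝ, |Z * (-2 * tc)| ≤ 2 →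
      (∀ j, |FM.zr L q j - Z * (-2 * tc)| ≤ 1 / 2 ^ j) → ∀ K : ℕ, ∃ θ > (0 : ℝ),
      ∀ (Λ : ℕ) (h : ℝ), 0 < h → ∃ w > 0, ∃ b > 0, ∃ J₀ : ℕ, ∀ g : Geo, J₀ ≤ g.J →
        g.PreS L R C₁ → g.M ≤ Λ * sc L g.J → ∀ v : Cor g.M, v.Ok → v.Off g.A → v.Sm R η δ₀ →
        g.FlowD L q v Z w (C * η) b h ∧
        ∀ c : ℝ, 1 ≤ c → c ^ 2 ≤ ε₁ * L → g.SchA L c → ∀ (k : ℕ) (s : Fin k → g.P × Fin 4)
          (u : Fin k → ℕ → g.P × Fin 4 → ℝ) (ν : Fin k → ℕ → ℝ) (o : ℝ)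
          (O : Fin k → g.Cfg → ℝ), g.MkPre s u ν L c' η₁ → LocO s K O → |o| ≤ 1 →
          (∀ i n, |O i n - o| ≤ θ) → g.FlowK s L q v o O K u ν w b h

/-- The mixed correlation with the strings `B`, insertions and the correction `v`. -/
noncomputable def mixK {M : ℕ} [NeZero M] (q : Par) (v : Cor M) (P B : Gauge M) {k : ℕ}
    (s : Fin k → Tor M × Fin 4) (O : Fin k → (Tor M × Fin 2 → Bool) → ℝ) {ι : Type} [Fintype ι]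
    (y : ι → Tor M) (d : ι → Fin 2) : ℝ :=
  ZJ q (P * B) s O (fun c => Real.exp (∑ X, v X c) *
    ∏ k, (sgn (c (y k, d k)) - enC q v P (y k) (d k))) / ZwC q v P 1

/-- `MainJQ` with a small correction. -/
def MainK (Q : Cls) (q : Par) (Zσ Zε : ℝ) (L : ℕ) (c' η₁ γ δ : ℝ) : Prop :=
  ∀ K : ℕ, ∃ θ > 0, ∀ (N Λ : ℕ) (Γ : ℝ), 1 ≤ Γ → ∃ C : ℝ, ∀ ε > 0, ∃ J₀ : ℕ, ∀ J ≥ J₀,
    ∀ (M : ℕ) [NeZero M] (P : Gauge M) (v : Cor M) (k : ℕ) (s : Fin k → Tor M × Fin 4)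
    (u : Fin k → ℕ → Tor M × Fin 4 → ℝ) (ν : Fin k → ℕ → ℝ) (o : ℝ)
    (O : Fin k → (Tor M × Fin 2 → Bool) → ℝ), v.Ok → v.Off P → v.Sm q.R γ δ → k ≤ N →
    MkDat P s u ν L J c' η₁ → LocO s K O → |o| ≤ 1 → (∀ i n, |O i n - o| ≤ θ) →
    ∃ z : Fin k → ℝ, (∀ i, |z i - o| ≤ 1 / 2) ∧
      ∀ (B : Gauge M) (ι : Type) [Fintype ι] [DecidableEq ι] (y : ι → Tor M) (d : ι → Fin 2)
      (n : ℕ) (K' : ℝ), DomQ Q P B y d n L J N Λ Γ →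
      (∀ φ, φ ⬝ᵥ φ ≤ (Γ * sc L J) ^ 2 * ((Dm (P * B) *ᵥ φ) ⬝ᵥ (Dm (P * B) *ᵥ φ))) →
      |Zw par0 (P * B) 1| ≤ K' * |Zw par0 P 1| →
        |mixK q v P B s O y d -
          (∏ i, z i) * Zσ ^ n * Zε ^ Fintype.card ι * mixJ par0 P B s 1 y d| ≤
          ε / (sc L J : ℝ) ^ Fintype.card ι * (K' * ∏ i, ν i J) ∧
        |mixJ par0 P B s 1 y d| ≤ C / (sc L J : ℝ) ^ Fintype.card ι * (K' * ∏ i, ν i J)

/-- Universality with insertions and corrections for every good class. -/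
def MainGenK : Prop :=
  ∃ ε₁ > (0 : ℝ), ∀ c' : ℝ, 1 ≤ c' → ∃ η₁ > (0 : ℝ), ∃ L₀ : ℕ, ∀ L ≥ L₀, ∀ C₁ : ℝ, 1 ≤ C₁ →
    ∀ ε > 0, ∃ η₂ > 0, ∀ R : ℕ, ∃ δ₀ > 0, ∀ q : Par, q.R = R → Crit L q η₂ δ₀ →
      ∃ Zσ Zε : ℝ, |Zσ - 1| < ε ∧ |Zε - 1| < ε ∧ MainOK q Zσ Zε ∧
        ∀ (Q : Cls) (c : ℝ), 1 ≤ c → c ^ 2 ≤ ε₁ * L → Q.Ok L C₁ c →
          MainQ Q q Zσ Zε L η₂ δ₀ ∧ MainK Q q Zσ Zε L c' η₁ η₂ δ₀

end Vale.Agent.P144Z
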