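import Vale.Agent.P144F.Stmt
import Vale.Agent.P144F.ODefs
import Vale.Agent.P144E.Defs

/-!
Reentrant corners and sign changes in the same domain: the statements of the blocks.
-/

namespace Vale.Agent.P144Z

open Finset Matrix

/-- The lattice version of `Lip` and `Sgn`; near the tips the boundary condition is constant. -/
structure RawB (Λ P : Finset (ℤ × ℤ)) (b : ℤ × ℤ → Bool) (α κ α' κ' : ℝ) (r : ℕ) : Prop where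
  raw : RawZ Λ P α κ r
  bc : BcZ Λ b α' κ' r
  tip : ∀ p ∈ P, ∃ c, ∀ v, zd v p ≤ r → v ∉ Λ → b v = c

/-- The discretisation of the domains and of the boundary conditions. -/
def RawK : Prop :=
  ∀ (α κ : ℝ) (D P₀ : Set ℂ), α ≤ 2 → κ ≤ 1 / 10 → Lip α κ D → Sgn κ D P₀ → ∃ α' κ' : ℝ,
    0 < κ' ∧ κ' ≤ κ ∧ 100 * κ' ≤ α' ∧ ∃ T > (0 : ℝ), ∃ ρ > (0 : ℝ), ∀ a > (0 : ℝ),
      (∀ x, x ∈ P144.disc D a ↔ (⟨a * x.1, a * x.2⟩ : ℂ) ∈ D) ∧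
      (∀ x ∈ P144.disc D a, a * zd x 0 ≤ T) ∧ ∀ r : ℕ, 1 ≤ r → a * r ≤ ρ →
        ∃ P, RawB (P144.disc D a) P (bcOf P₀ a) α κ α' κ' r

/-- `MarkStmt`, and each marked point is near a wall of the boundary condition. -/
def MarkS2 : Prop :=
  ∀ α > (0 : ℝ), ∀ R₀ : ℕ, ∃ K : ℕ, ∀ Λ₀ : ℕ, ∃ k₀ : ℕ, ∀ κ > (0 : ℝ), 100 * κ ≤ α → ∀ r : ℕ,
    8 * K ≤ r → ∀ (Λ : Finset (ℤ × ℤ)) (b : ℤ × ℤ → Bool), BcZ Λ b α κ r →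
    (∀ v ∈ Λ, zd v 0 ≤ Λ₀ * r) → ∃ k ≤ k₀, ∃ (x : Fin k → ℤ × ℤ) (e : Fin k → Fin 4)
      (b' : ℤ × ℤ → Bool), MkG Λ κ (r / 2) x e ∧ MkB Λ b b' R₀ K x e ∧
        ∀ i, ∃ v a, RemE Λ v a ∧ WallE b v a ∧ zd v (x i) ≤ K

/-- The dug sets have deep points. -/
def DeepW : Prop :=
  ∀ α > (0 : ℝ), ∀ t N : ℕ, ∃ C Q : ℕ, 1 ≤ Q ∧ ∃ κ₀ > (0 : ℝ), ∀ κ, 0 < κ → κ ≤ κ₀ →
    ∀ (Λ P : Finset (ℤ × ℤ)) (r r' T : ℕ), RawZ Λ P α κ r → Q * r' ≤ r →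
    (∀ v ∈ Λ, zd v 0 ≤ T) → (∀ p ∈ P, ∃ v, v ∉ Λ ∧ zd v p ≤ t) →
    (∀ (M : ℕ) [NeZero M], 4 * (T + r) ≤ M → Rgh ((dig Λ P t).image (prj M)) N r') →
      DeepOK (dig Λ P t) C r'

open P144 in
/-- The spins of the squares around the tips are summed out. -/
def DigS : Prop :=
  ∀ R₁ t : ℕ, ∃ C : ℝ, 1 ≤ C ∧ ∀ (J lam β : ℝ) (q : Par), UL.Rel J lam β q →
    (∀ B, q.V B ≠ 0 → (0, 0) ∈ B → B ∈ potSets R₁) → 1 / 4 ≤ q.x → q.x ≤ 1 / 2 → q.Small 1 →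
    ∀ (M : ℕ) [NeZero M] (Λ P : Finset Site) (T : ℕ) (b b'' b' : Config),
    (∀ v ∈ Λ, zd v 0 ≤ T) → (∀ p ∈ P, zd p 0 ≤ T) →
    (∀ p ∈ P, ∀ p' ∈ P, p ≠ p' → 2 * (t + R₁ + 2) < zd p p') → 4 * (T + t + R₁ + 4) ≤ M →
    (∀ v, v ∉ Λ → b'' v = b v) →
    (∀ p ∈ P, ∀ v, zd v p ≤ t + R₁ + 2 → v ∉ dig Λ P t → b'' v = b'' p ∧ b' v = b'' p) →
    ∃ (G : Config → ℝ) (O : Site → (Tor M × Fin 2 → Bool) → ℝ), LocE P (t + R₁ + 2) O ∧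
      (∀ p n, C⁻¹ ≤ O p n ∧ O p n ≤ C) ∧
      (∀ σ σ', (∀ v ∈ dig Λ P t, σ v = σ' v) → G σ = G σ') ∧
      (∀ σ : Tor M → Bool, OutB ((dig Λ P t).image (prj M)) b' σ →
        G (per M σ) = ∏ p ∈ P, O p (nOf ((dig Λ P t).image (prj M)) σ)) ∧
      ∀ F : Config → ℝ, (∀ σ σ', (∀ v ∈ dig Λ P t, σ v = σ' v) → F σ = F σ') →
        gibbs J lam q.V β (some b) Λ F =
          gibbs J lam q.V β (some b'') (dig Λ P t) (fun σ => F σ * G σ) /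
            gibbs J lam q.V β (some b'') (dig Λ P t) G

/-- A product of local observables is a combination of small corrections, pointwise. -/
def TiltP : Prop :=
  ∀ (C θ : ℝ) (k₀ : ℕ), 1 ≤ C → 0 < θ → ∃ B : ℝ, ∀ q : Par, 0 < q.x → ∀ (M : ℕ) [NeZero M]
    (Λ P : Finset (ℤ × ℤ)) (T K : ℕ) (O : ℤ × ℤ → (Tor M × Fin 2 → Bool) → ℝ) (γ : ℝ), 0 ≤ γ →
    (∀ v ∈ Λ, zd v 0 ≤ T) → (∀ p ∈ P, zd p 0 ≤ T ∧ ∀ v, zd v p ≤ 1 → v ∉ Λ) →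
    (∀ p ∈ P, ∀ p' ∈ P, p ≠ p' → 2 * K < zd p p') → P.card ≤ k₀ → K ≤ q.R + 1 →
    4 * (T + K + q.R + 2) ≤ M → LocE P K O → (∀ p n, C⁻¹ ≤ O p n ∧ O p n ≤ C) →
    ∃ (u : Finset (ℤ × ℤ) → Cor M) (c : Finset (ℤ × ℤ) → ℝ),
      (∀ U, (u U).Ok ∧ (u U).Off (pwI (Λ.image (prj M))) ∧ (u U).Sm q.R γ θ) ∧
      ∑ U ∈ P.powerset, |c U| ≤ B ∧ ∀ n, (∏ p ∈ P, O p n) / Zw q (pwI (Λ.image (prj M))) 1 =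
        ∑ U ∈ P.powerset,
          c U * (Real.exp (∑ X, u U X n) / ZwC q (u U) (pwI (Λ.image (prj M))) 1)

open P144 in
/-- Universality for finite sets of sites with tips and sign changes. -/
def LatOKF (q : Par) (Zσ Zε α κ : ℝ) : Prop :=
  ∀ J lam β : ℝ, 0 < J → q.μ = β * lam → q.x = Real.exp (-(2 * β * J)) → ∀ α' κ' : ℝ, 0 < κ' →
    κ' ≤ κ → 100 * κ' ≤ α' → ∀ n m Λ₀ : ℕ, ∀ ε > 0, ∃ r₀ : ℕ, ∀ r ≥ r₀, ∀ (Λ P : Finset Site)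
      (b : Config) (x : Fin n → Site) (y : Fin m → Site) (j : Fin m → Fin 2),
      RawB Λ P b α κ α' κ' r → (∀ v ∈ Λ, zd v 0 ≤ Λ₀ * r) → Spins Λ r (Sum.elim x y) →
        |lcor (gibbs J lam q.V β (some b) Λ) x y j -
          Zσ ^ n * Zε ^ m * lcor (gibbs J 0 (fun _ => 0) (Kc / J) (some b) Λ) x y j| ≤
          ε * (r : ℝ) ^ (-((n : ℝ) / 8)) / (r : ℝ) ^ m

/-- Universality on the lattice. -/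
def LatStmtF : Prop :=
  ∀ α > (0 : ℝ), ∃ t₀ L₀ : ℕ, ∀ L ≥ L₀, ∃ κ > (0 : ℝ), ∀ ε > (0 : ℝ), ∃ η₀ > (0 : ℝ), ∀ R₁ : ℕ,
    ∃ δ₀ > (0 : ℝ), ∀ q : Par, q.R = R₁ + t₀ →
      (∀ B, q.V B ≠ 0 → (0, 0) ∈ B → B ∈ potSets R₁) → Crit L q η₀ δ₀ → ∃ Zσ Zε : ℝ,
        |Zσ - 1| < ε ∧ |Zε - 1| < ε ∧ MainOK q Zσ Zε ∧ LatOKW q Zσ Zε α κ ∧ LatOKF q Zσ Zε α κ

end Vale.Agent.P144Z
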