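import Vale.Agent.P144D.I.Stmt

/-!
Domains with corners and boundaries of small slope, with piecewise constant boundary conditions.
-/

namespace Vale.Agent.P144Z

open Metric Vale.Agent.P144

/-- Near `z` the set `D` is the intersection of two regions above graphs of slope `κ`, or the union
of two such regions whose boundaries cross at `z`; the normals are not closer than `α` to being
opposite, and in the second case not closer than `α` to each other. -/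
def Chart (α κ : ℝ) (D : Set ℂ) (z : ℂ) : Prop :=
  ∃ r > (0 : ℝ), ∃ (S₁ S₂ : Set ℂ) (ν₁ ν₂ : ℂ), ‖ν₁‖ = 1 ∧ ‖ν₂‖ = 1 ∧ α ≤ ‖ν₁ + ν₂‖ ∧
    Cone S₁ ν₁ κ ∧ Cone S₂ ν₂ κ ∧ (D ∩ ball z r = S₁ ∩ S₂ ∩ ball z r ∨
      α ≤ ‖ν₁ - ν₂‖ ∧ z ∈ frontier S₁ ∧ z ∈ frontier S₂ ∧ D ∩ ball z r = (S₁ ∪ S₂) ∩ ball z r)

/-- Bounded open sets whose boundary has slope at most `κ`, apart from convex and reentrant
corners. -/
def Lip (α κ : ℝ) (D : Set ℂ) : Prop :=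
  IsOpen D ∧ Bornology.IsBounded D ∧ ∀ z ∈ frontier D, Chart α κ D z

/-- Near each boundary point the outside of `D` lies in `P`, or lies outside `P`, or `D` and `P`
are regions above graphs of small slope that cross transversally. -/
def Sgn (κ : ℝ) (D P : Set ℂ) : Prop :=
  ∃ α' κ' : ℝ, 0 < κ' ∧ κ' ≤ κ ∧ 100 * κ' ≤ α' ∧ ∀ z ∈ frontier D, ∃ r > (0 : ℝ),
    ball z r \ D ⊆ P ∨ ball z r \ D ⊆ Pᶜ ∨ ∃ (S S' : Set ℂ) (ν τ : ℂ), ‖ν‖ = 1 ∧ ‖τ‖ = 1 ∧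
      α' ≤ ‖ν + τ‖ ∧ α' ≤ ‖ν - τ‖ ∧ Cone S ν κ' ∧ Cone S' τ κ' ∧ D ∩ ball z r = S ∩ ball z r ∧
        (P \ D) ∩ ball z r = (S' \ D) ∩ ball z r

/-- The free boundary condition, or a piecewise constant fixed one. -/
def SgnBC (κ : ℝ) (D : Set ℂ) (b : Option (ℝ → Config)) : Prop :=
  b = none ∨ ∃ P, Sgn κ D P ∧ b = some (bcOf P)

/-- Q1 in the plane and in the domains of the class `Lip α κ`, with the same constants. -/
def DomQ4 : Prop :=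
  ∀ α > 0, ∃ κ > 0, ∀ J > 0, ∀ V, IsPotential V → ∀ ε > 0, ∃ lam₀ > 0, ∀ lam : ℝ, |lam| < lam₀ →
    ∃ β > 0, ∃ Zσ Zε : ℝ, |β - Kc / J| < ε ∧ |Zσ - 1| < ε ∧ |Zε - 1| < ε ∧ Zσ ≠ 0 ∧ Zε ≠ 0 ∧
      (∃ μ, IsPlaneState J lam V β μ ∧ IsTorusState J lam V β μ ∧
        ∀ E₀, PlaneFam J 0 (fun _ => 0) (Kc / J) E₀ →
          Diff Set.univ E₀ (famOf μ) Zσ Zε ∧ Identity Set.univ E₀ (famOf μ) Zσ Zε) ∧
      ∀ D, Lip α κ D → ∀ b, SgnBC κ D b → Diff D (crit J D b) (inDom J lam V β D b) Zσ Zε ∧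
        Identity D (crit J D b) (inDom J lam V β D b) Zσ Zε

/-- Bounded open sets that are near each boundary point the region above the graph of a function
with Lipschitz constant `κ`, in suitable coordinates. -/
def IsLip (κ : ℝ) (D : Set ℂ) : Prop :=
  IsOpen D ∧ Bornology.IsBounded D ∧ ∀ z ∈ frontier D, ∃ r > (0 : ℝ), ∃ (ν : ℂ) (g : ℝ → ℝ),
    ‖ν‖ = 1 ∧ (∀ s t, |g s - g t| ≤ κ * |s - t|) ∧
      D ∩ ball z r = {w | g (w / ν).im < (w / ν).re} ∩ ball z r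

end Vale.Agent.P144Z
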